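import Mathlib
import Crest.Prelude.Def_BoxFlow

set_option autoImplicit false

/-!
Design-independent ODE facts for the box-flow statement (S0170): global existence of the flow of a
smooth compactly supported velocity field that vanishes outside the time window `[1/4, 3/4]`, and
uniqueness of integral curves (so that each stage of a construction only has to exhibit an explicit
curve).
-/

namespace Crest.Agent.Helper6

open Crest.AnalysisR.BoxFlow Set Metric
open scoped NNReal Topology ContDiff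

/-- A smooth compactly supported field is globally Lipschitz. -/
theorem exists_lipschitzWith (U : Field) (hU : ContDiff ℝ ∞ U) (hc : HasCompactSupport U) :
    ∃ K : ℝ≥0, LipschitzWith K U :=
  ContDiff.lipschitzWith_of_hasCompactSupport hc hU (by simp)

/-- The time slices of a Lipschitz field are Lipschitz with the same constant. -/
theorem lipschitzWith_slice {U : Field} {K : ℝ≥0} (hK : LipschitzWith K U) (t : ℝ) :
    LipschitzWith K (fun x : Fin 3 → ℝ => U (t, x)) := by
  intro x y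
  refine (hK (t, x) (t, y)).trans ?_
  gcongr
  simp [Prod.edist_eq]

/-- A continuous compactly supported field is bounded. -/
theorem exists_norm_le (U : Field) (hU : Continuous U) (hc : HasCompactSupport U) :
    ∃ M : ℝ≥0, ∀ p, ‖U p‖ ≤ M := by
  obtain ⟨C, hC⟩ := hU.bounded_above_of_compact_support hc
  refine ⟨⟨max C 0, le_max_right _ _⟩, fun p => ?_⟩
  exact (hC p).trans (le_max_left _ _)

/-- Picard–Lindelöf on the fixed window `[-1, 2]`, from time `0`. -/
theorem exists_curve_Icc (U : Field) (hU : ContDiff ℝ ∞ U) (hc : HasCompactSupport U)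
    (x : Fin 3 → ℝ) :
    ∃ α : ℝ → Fin 3 → ℝ, α 0 = x ∧
      ∀ t ∈ Icc (-1 : ℝ) 2, HasDerivWithinAt α (U (t, α t)) (Icc (-1 : ℝ) 2) t := by
  obtain ⟨K, hK⟩ := exists_lipschitzWith U hU hc
  obtain ⟨M, hM⟩ := exists_norm_le U hU.continuous hc
  have h0 : (0 : ℝ) ∈ Icc (-1 : ℝ) 2 := by constructor <;> norm_num
  have hPL : IsPicardLindelof (fun t y => U (t, y)) (⟨0, h0⟩ : Icc (-1 : ℝ) 2) x (2 * M) 0 M K := by
    refine ⟨fun t _ => (lipschitzWith_slice hK t).lipschitzOnWith, fun y _ => ?_,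
      fun t _ y _ => hM (t, y), ?_⟩
    · exact (hU.continuous.comp (by fun_prop)).continuousOn
    · simp only [NNReal.coe_mul, NNReal.coe_ofNat, NNReal.coe_zero, sub_zero]
      have : max (2 : ℝ) (0 - -1) = 2 := by norm_num
      rw [this]
      linarith [M.coe_nonneg]
  exact hPL.exists_eq_forall_mem_Icc_hasDerivWithinAt₀

/-- Clamping of time to `[-1/2, 3/2]`. -/
noncomputable def clampT (t : ℝ) : ℝ := max (-1 / 2) (min t (3 / 2))

theorem clampT_of_mem {t : ℝ} (h1 : -1 / 2 ≤ t) (h2 : t ≤ 3 / 2) : clampT t = t := by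
  unfold clampT
  rw [min_eq_left h2, max_eq_right h1]

theorem clampT_mem (t : ℝ) : clampT t ∈ Icc (-1 / 2 : ℝ) (3 / 2) := by
  unfold clampT
  refine ⟨le_max_left _ _, max_le (by norm_num) (min_le_right _ _)⟩

theorem clampT_le {t : ℝ} (h : t ≤ 0) : clampT t ≤ 0 := by
  unfold clampT
  exact max_le (by norm_num) ((min_le_left _ _).trans h)

theorem clampT_ge {t : ℝ} (h : 1 ≤ t) : 1 ≤ clampT t := by
  unfold clampT
  exact le_max_of_le_right (le_min h (by norm_num))

/-- **Global flow.** A smooth compactly supported field vanishing outside the time window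
`[1/4, 3/4]` has a flow defined for all times. -/
theorem exists_isFlow (U : Field) (hU : ContDiff ℝ ∞ U) (hc : HasCompactSupport U)
    (ht : ∀ p : ℝ × (Fin 3 → ℝ), p.1 ∉ Icc (1 / 4 : ℝ) (3 / 4) → U p = 0) :
    ∃ Φ : ℝ → (Fin 3 → ℝ) → (Fin 3 → ℝ), IsFlow U Φ := by
  choose α hα0 hα using exists_curve_Icc U hU hc
  have hcont : ∀ x, ContinuousOn (α x) (Icc (-1 : ℝ) 2) := fun x s hs =>
    (hα x s hs).continuousWithinAt
  -- `α x` is constant on `[-1, 1/8]`
  have hconstL : ∀ x, ∀ s ∈ Icc (-1 : ℝ) (1 / 8), α x s = α x (-1) := by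
    intro x
    apply constant_of_has_deriv_right_zero
    · exact (hcont x).mono (Icc_subset_Icc le_rfl (by norm_num))
    · intro s hs
      have hs' : s ∈ Icc (-1 : ℝ) 2 := ⟨hs.1, by linarith [hs.2]⟩
      have h := hα x s hs'
      have hz : U (s, α x s) = 0 := ht (s, α x s) (fun hmem => by
        have := hmem.1
        simp only at this
        linarith [hs.2])
      rw [hz] at h
      exact h.mono_of_mem_nhdsWithin (Icc_mem_nhdsGE_of_mem ⟨hs.1, by linarith [hs.2]⟩)
  -- `α x` is constant on `[7/8, 2]`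
  have hconstR : ∀ x, ∀ s ∈ Icc (7 / 8 : ℝ) 2, α x s = α x (7 / 8) := by
    intro x
    apply constant_of_has_deriv_right_zero
    · exact (hcont x).mono (Icc_subset_Icc (by norm_num) le_rfl)
    · intro s hs
      have hs' : s ∈ Icc (-1 : ℝ) 2 := ⟨by linarith [hs.1], hs.2.le⟩
      have h := hα x s hs'
      have hz : U (s, α x s) = 0 := ht (s, α x s) (fun hmem => by
        have := hmem.2
        simp only at this
        linarith [hs.1])
      rw [hz] at h
      exact h.mono_of_mem_nhdsWithin (Icc_mem_nhdsGE_of_mem ⟨by linarith [hs.1], hs.2⟩)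
  refine ⟨fun t x => α x (clampT t), fun x => ?_, fun t x => ?_⟩
  · simp only
    rw [clampT_of_mem (by norm_num) (by norm_num)]
    exact hα0 x
  · simp only
    rcases lt_or_ge t (-1 / 4) with h1 | h1
    · -- locally constant near `t`
      have hz : U (t, α x (clampT t)) = 0 := ht _ (fun hmem => by
        have := hmem.1
        simp only at this
        linarith)
      rw [hz]
      have hev : (fun s => α x (clampT s)) =ᶠ[𝓝 t] fun _ => α x (-1) := by
        filter_upwards [Iio_mem_nhds (show t < 0 by linarith)] with s hs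
        exact hconstL x _ ⟨by linarith [(clampT_mem s).1],
          (clampT_le (le_of_lt hs)).trans (by norm_num)⟩
      exact (hasDerivAt_const t (α x (-1))).congr_of_eventuallyEq hev
    rcases lt_or_ge (5 / 4) t with h2 | h2
    · have hz : U (t, α x (clampT t)) = 0 := ht _ (fun hmem => by
        have := hmem.2
        simp only at this
        linarith)
      rw [hz]
      have hev : (fun s => α x (clampT s)) =ᶠ[𝓝 t] fun _ => α x (7 / 8) := by
        filter_upwards [Ioi_mem_nhds (show 1 < t by linarith)] with s hs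
        exact hconstR x _ ⟨by linarith [clampT_ge (le_of_lt hs)],
          by linarith [(clampT_mem s).2]⟩
      exact (hasDerivAt_const t (α x (7 / 8))).congr_of_eventuallyEq hev
    · -- interior: `clampT` is the identity near `t`
      have hct : clampT t = t := clampT_of_mem (by linarith) (by linarith)
      rw [hct]
      have hd : HasDerivAt (α x) (U (t, α x t)) t :=
        (hα x t ⟨by linarith, by linarith⟩).hasDerivAt
          (Icc_mem_nhds (by linarith) (by linarith))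
      have hev : (fun s => α x (clampT s)) =ᶠ[𝓝 t] α x := by
        filter_upwards [Ioo_mem_nhds (show -1 / 2 < t by linarith) (show t < 3 / 2 by linarith)]
          with s hs
        rw [clampT_of_mem hs.1.le hs.2.le]
      exact hd.congr_of_eventuallyEq hev

/-- **Uniqueness (Mathlib-style hypotheses).** A curve that is continuous on `[t₀, t₁]`, solves the
equation from the right on `[t₀, t₁)` and starts at the flow's position at time `t₀`, follows the
flow on `[t₀, t₁]`. -/
theorem isFlow_eq_of_hasDerivWithinAt {U : Field} {Φ : ℝ → (Fin 3 → ℝ) → (Fin 3 → ℝ)}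
    (hU : ContDiff ℝ ∞ U) (hc : HasCompactSupport U) (hΦ : IsFlow U Φ)
    {γ : ℝ → Fin 3 → ℝ} {t₀ t₁ : ℝ} {x : Fin 3 → ℝ}
    (hγc : ContinuousOn γ (Icc t₀ t₁))
    (hγ : ∀ t ∈ Ico t₀ t₁, HasDerivWithinAt γ (U (t, γ t)) (Ici t) t)
    (h0 : γ t₀ = Φ t₀ x) : ∀ t ∈ Icc t₀ t₁, γ t = Φ t x := by
  obtain ⟨K, hK⟩ := exists_lipschitzWith U hU hc
  have := ODE_solution_unique (v := fun t y => U (t, y)) (K := K) (f := γ)
    (g := fun t => Φ t x) (a := t₀) (b := t₁) (fun t => lipschitzWith_slice hK t) hγc hγ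
    (fun t _ => (hΦ.2 t x).continuousAt.continuousWithinAt)
    (fun t _ => (hΦ.2 t x).hasDerivWithinAt) h0
  exact fun t ht => this ht

/-- **Uniqueness (convenient form).** A curve with `γ' t = U (t, γ t)` at every `t ∈ [t₀, t₁]`
starting at the flow's position at time `t₀` follows the flow on `[t₀, t₁]`. -/
theorem isFlow_eq_of_hasDerivAt {U : Field} {Φ : ℝ → (Fin 3 → ℝ) → (Fin 3 → ℝ)}
    (hU : ContDiff ℝ ∞ U) (hc : HasCompactSupport U) (hΦ : IsFlow U Φ)
    {γ : ℝ → Fin 3 → ℝ} {t₀ t₁ : ℝ} {x : Fin 3 → ℝ}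
    (hγ : ∀ t ∈ Icc t₀ t₁, HasDerivAt γ (U (t, γ t)) t)
    (h0 : γ t₀ = Φ t₀ x) : ∀ t ∈ Icc t₀ t₁, γ t = Φ t x :=
  isFlow_eq_of_hasDerivWithinAt hU hc hΦ
    (fun t ht => (hγ t ht).continuousAt.continuousWithinAt)
    (fun t ht => (hγ t (Ico_subset_Icc_self ht)).hasDerivWithinAt) h0

/-- If the field vanishes at the point `Φ t₀ x` during `[t₀, t₁)`, the trajectory of `x` rests
during `[t₀, t₁]`. -/
theorem isFlow_const_of_zero {U : Field} {Φ : ℝ → (Fin 3 → ℝ) → (Fin 3 → ℝ)}
    (hU : ContDiff ℝ ∞ U) (hc : HasCompactSupport U) (hΦ : IsFlow U Φ)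
    {t₀ t₁ : ℝ} {x : Fin 3 → ℝ} (hz : ∀ t ∈ Ico t₀ t₁, U (t, Φ t₀ x) = 0) :
    ∀ t ∈ Icc t₀ t₁, Φ t x = Φ t₀ x := by
  intro t ht
  refine (isFlow_eq_of_hasDerivWithinAt hU hc hΦ (γ := fun _ => Φ t₀ x) continuousOn_const
    (fun s hs => ?_) rfl t ht).symm
  rw [hz s hs]
  exact hasDerivWithinAt_const _ _ _

/-- A continuous field that vanishes for times outside `[1/4, 3/4]` also vanishes at the two
boundary times. -/
theorem eq_zero_of_time_not_mem_Ioo {U : Field} (hU : Continuous U)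
    (ht : ∀ p : ℝ × (Fin 3 → ℝ), p.1 ∉ Icc (1 / 4 : ℝ) (3 / 4) → U p = 0)
    (p : ℝ × (Fin 3 → ℝ)) (hp : p.1 ∉ Ioo (1 / 4 : ℝ) (3 / 4)) : U p = 0 := by
  have hclosed : IsClosed {q : ℝ × (Fin 3 → ℝ) | U q = 0} :=
    isClosed_eq hU continuous_const
  have hsub : {q : ℝ × (Fin 3 → ℝ) | q.1 ∉ Icc (1 / 4 : ℝ) (3 / 4)} ⊆
      {q : ℝ × (Fin 3 → ℝ) | U q = 0} := fun q hq => ht q hq
  have hmem : p ∈ closure {q : ℝ × (Fin 3 → ℝ) | q.1 ∉ Icc (1 / 4 : ℝ) (3 / 4)} := by
    have h1 : {q : ℝ × (Fin 3 → ℝ) | q.1 ∉ Icc (1 / 4 : ℝ) (3 / 4)} =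
        Prod.fst ⁻¹' (Icc (1 / 4 : ℝ) (3 / 4))ᶜ := rfl
    rw [h1, ← isOpenMap_fst.preimage_closure_eq_closure_preimage continuous_fst]
    have h2 : closure ((Icc (1 / 4 : ℝ) (3 / 4))ᶜ) = (Ioo (1 / 4 : ℝ) (3 / 4))ᶜ := by
      rw [closure_compl, interior_Icc]
    rw [h2]
    exact hp
  exact (closure_minimal hsub hclosed) hmem

/-- Before time `1/4` nothing moves. -/
theorem isFlow_eq_self_of_le {U : Field} {Φ : ℝ → (Fin 3 → ℝ) → (Fin 3 → ℝ)}
    (hU : ContDiff ℝ ∞ U) (hc : HasCompactSupport U) (hΦ : IsFlow U Φ)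
    (ht : ∀ p : ℝ × (Fin 3 → ℝ), p.1 ∉ Icc (1 / 4 : ℝ) (3 / 4) → U p = 0)
    (x : Fin 3 → ℝ) : ∀ t ∈ Icc (0 : ℝ) (1 / 4), Φ t x = x := by
  intro t htm
  have h := isFlow_const_of_zero hU hc hΦ (t₀ := 0) (t₁ := 1 / 4) (x := x)
    (fun s hs => ht _ (fun hmem => by
      have := hmem.1
      simp only at this
      linarith [hs.2])) t htm
  rw [h, hΦ.1 x]

/-- After time `3/4` nothing moves: the time-one map is the time-`3/4` map. -/
theorem isFlow_eq_of_ge {U : Field} {Φ : ℝ → (Fin 3 → ℝ) → (Fin 3 → ℝ)}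
    (hU : ContDiff ℝ ∞ U) (hc : HasCompactSupport U) (hΦ : IsFlow U Φ)
    (ht : ∀ p : ℝ × (Fin 3 → ℝ), p.1 ∉ Icc (1 / 4 : ℝ) (3 / 4) → U p = 0)
    (x : Fin 3 → ℝ) {t : ℝ} (h : 3 / 4 ≤ t) : Φ t x = Φ (3 / 4) x :=
  isFlow_const_of_zero hU hc hΦ (t₀ := 3 / 4) (t₁ := t) (x := x)
    (fun s hs => eq_zero_of_time_not_mem_Ioo hU.continuous ht _ (fun hmem => by
      have := hmem.2
      simp only at this
      linarith [hs.1])) t ⟨h, le_rfl⟩

end Crest.Agent.Helper6
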