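/-
helper6: primitive stage fields for the S0170 team build.

One stream-function field handles a localized translation and a localized shear:
inside the open box `inner lo hi` the field equals `g t • ((α + κ (y l - c)) • e_j)`
(with `j ≠ l`), outside the `δ`-inflated closed box it vanishes, it is divergence free,
smooth, compactly supported, active only for `t ∈ (τ₀, τ₁)`, and it is literally a sum of two
tensor fields in the sense of `Crest.Agent.Helper13.tensor`.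
-/
import Mathlib
import Crest.Prelude.Def_BoxFlow
import Crest.Agent.Helper13.BoxEffDefs
import Crest.Agent.Helper6.BoxFlowODE

set_option autoImplicit false
open scoped ContDiff
open Set Function

namespace Crest.Agent.Helper6

open Crest.AnalysisR.BoxFlow

/-! ### One-dimensional building blocks -/

/-- Rational affine reparametrisation of the standard smooth step. -/
noncomputable def step (a b : ℚ) (x : ℝ) : ℝ := Real.smoothTransition ((a : ℝ) * x + (b : ℝ))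

theorem step_contDiff (a b : ℚ) : ContDiff ℝ ∞ (step a b) := by
  have h : ContDiff ℝ ∞ (fun x : ℝ => (a : ℝ) * x + (b : ℝ)) := by fun_prop
  exact Real.smoothTransition.contDiff.comp h

theorem step_nonneg (a b : ℚ) (x : ℝ) : 0 ≤ step a b x := Real.smoothTransition.nonneg _

theorem step_le_one (a b : ℚ) (x : ℝ) : step a b x ≤ 1 := Real.smoothTransition.le_one _

theorem step_eq_zero {a b : ℚ} {x : ℝ} (h : (a : ℝ) * x + (b : ℝ) ≤ 0) : step a b x = 0 :=
  Real.smoothTransition.zero_of_nonpos h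

theorem step_eq_one {a b : ℚ} {x : ℝ} (h : 1 ≤ (a : ℝ) * x + (b : ℝ)) : step a b x = 1 :=
  Real.smoothTransition.one_of_one_le h

/-- The plateau function: `1` on `[l, r]`, `0` outside `(l - δ, r + δ)`, written as a
difference of two steps. -/
noncomputable def plateau (l r δ : ℚ) (x : ℝ) : ℝ :=
  step δ⁻¹ ((δ - l) / δ) x - step δ⁻¹ (-r / δ) x

theorem plateau_contDiff (l r δ : ℚ) : ContDiff ℝ ∞ (plateau l r δ) :=
  (step_contDiff _ _).sub (step_contDiff _ _)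

theorem plateau_eq_one {l r δ : ℚ} (hδ : 0 < δ) {x : ℝ} (hl : (l : ℝ) ≤ x) (hr : x ≤ (r : ℝ)) :
    plateau l r δ x = 1 := by
  have hδ' : (0 : ℝ) < (δ : ℝ) := by exact_mod_cast hδ
  have h1 : step δ⁻¹ ((δ - l) / δ) x = 1 := by
    apply step_eq_one
    push_cast
    rw [show ((δ : ℝ))⁻¹ * x + ((δ : ℝ) - l) / δ = (x + δ - l) / δ by field_simp; ring]
    rw [le_div_iff₀ hδ']
    linarith
  have h2 : step δ⁻¹ (-r / δ) x = 0 := by
    apply step_eq_zero
    push_cast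
    rw [show ((δ : ℝ))⁻¹ * x + -(r : ℝ) / δ = (x - r) / δ by field_simp; ring]
    exact div_nonpos_of_nonpos_of_nonneg (by linarith) hδ'.le
  rw [plateau, h1, h2, sub_zero]

theorem plateau_eq_zero_left {l r δ : ℚ} (hδ : 0 < δ) (hlr : l ≤ r) {x : ℝ}
    (hx : x ≤ (l : ℝ) - δ) : plateau l r δ x = 0 := by
  have hδ' : (0 : ℝ) < (δ : ℝ) := by exact_mod_cast hδ
  have hlr' : (l : ℝ) ≤ r := by exact_mod_cast hlr
  have h1 : step δ⁻¹ ((δ - l) / δ) x = 0 := by
    apply step_eq_zero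
    push_cast
    rw [show ((δ : ℝ))⁻¹ * x + ((δ : ℝ) - l) / δ = (x + δ - l) / δ by field_simp; ring]
    exact div_nonpos_of_nonpos_of_nonneg (by linarith) hδ'.le
  have h2 : step δ⁻¹ (-r / δ) x = 0 := by
    apply step_eq_zero
    push_cast
    rw [show ((δ : ℝ))⁻¹ * x + -(r : ℝ) / δ = (x - r) / δ by field_simp; ring]
    exact div_nonpos_of_nonpos_of_nonneg (by linarith) hδ'.le
  rw [plateau, h1, h2, sub_zero]

theorem plateau_eq_zero_right {l r δ : ℚ} (hδ : 0 < δ) (hlr : l ≤ r) {x : ℝ}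
    (hx : (r : ℝ) + δ ≤ x) : plateau l r δ x = 0 := by
  have hδ' : (0 : ℝ) < (δ : ℝ) := by exact_mod_cast hδ
  have hlr' : (l : ℝ) ≤ r := by exact_mod_cast hlr
  have h1 : step δ⁻¹ ((δ - l) / δ) x = 1 := by
    apply step_eq_one
    push_cast
    rw [show ((δ : ℝ))⁻¹ * x + ((δ : ℝ) - l) / δ = (x + δ - l) / δ by field_simp; ring]
    rw [le_div_iff₀ hδ']
    linarith
  have h2 : step δ⁻¹ (-r / δ) x = 1 := by
    apply step_eq_one
    push_cast
    rw [show ((δ : ℝ))⁻¹ * x + -(r : ℝ) / δ = (x - r) / δ by field_simp; ring]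
    rw [le_div_iff₀ hδ']
    linarith
  rw [plateau, h1, h2, sub_self]

theorem plateau_eventuallyEq_one {l r δ : ℚ} (hδ : 0 < δ) {x : ℝ} (hl : (l : ℝ) < x)
    (hr : x < (r : ℝ)) : plateau l r δ =ᶠ[nhds x] fun _ => (1 : ℝ) := by
  filter_upwards [Ioo_mem_nhds hl hr] with y hy
  exact plateau_eq_one hδ hy.1.le hy.2.le

theorem plateau_eventuallyEq_zero {l r δ : ℚ} (hδ : 0 < δ) (hlr : l ≤ r) {x : ℝ}
    (hx : x < (l : ℝ) - δ ∨ (r : ℝ) + δ < x) : plateau l r δ =ᶠ[nhds x] fun _ => (0 : ℝ) := by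
  rcases hx with hx | hx
  · filter_upwards [Iio_mem_nhds hx] with y hy
    exact plateau_eq_zero_left hδ hlr (le_of_lt hy)
  · filter_upwards [Ioi_mem_nhds hx] with y hy
    exact plateau_eq_zero_right hδ hlr (le_of_lt hy)

theorem deriv_plateau_of_inner {l r δ : ℚ} (hδ : 0 < δ) {x : ℝ} (hl : (l : ℝ) < x)
    (hr : x < (r : ℝ)) : deriv (plateau l r δ) x = 0 := by
  rw [(plateau_eventuallyEq_one hδ hl hr).deriv_eq]
  simp

theorem deriv_plateau_of_outer {l r δ : ℚ} (hδ : 0 < δ) (hlr : l ≤ r) {x : ℝ}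
    (hx : x < (l : ℝ) - δ ∨ (r : ℝ) + δ < x) : deriv (plateau l r δ) x = 0 := by
  rw [(plateau_eventuallyEq_zero hδ hlr hx).deriv_eq]
  simp

/-- A rational quadratic (with derivative `α + κ (x - c)`) times the plateau, written with the
closure operations of the one-dimensional effectiveness kit. -/
noncomputable def quadP (α κ c l r δ : ℚ) (x : ℝ) : ℝ :=
  ((κ / 2 : ℚ) : ℝ) * (x * (x * plateau l r δ x)) +
    (((α - κ * c : ℚ) : ℝ) * (x * plateau l r δ x) + ((κ * c ^ 2 / 2 : ℚ) : ℝ) * plateau l r δ x)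

theorem quadP_contDiff (α κ c l r δ : ℚ) : ContDiff ℝ ∞ (quadP α κ c l r δ) := by
  have h := plateau_contDiff l r δ
  have : ContDiff ℝ ∞ (fun x : ℝ => ((κ / 2 : ℚ) : ℝ) * (x * (x * plateau l r δ x)) +
    (((α - κ * c : ℚ) : ℝ) * (x * plateau l r δ x) +
      ((κ * c ^ 2 / 2 : ℚ) : ℝ) * plateau l r δ x)) := by fun_prop
  exact this

theorem quadP_eventuallyEq_zero (α κ c : ℚ) {l r δ : ℚ} (hδ : 0 < δ) (hlr : l ≤ r) {x : ℝ}
    (hx : x < (l : ℝ) - δ ∨ (r : ℝ) + δ < x) :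
    quadP α κ c l r δ =ᶠ[nhds x] fun _ => (0 : ℝ) := by
  filter_upwards [plateau_eventuallyEq_zero hδ hlr hx] with y hy
  simp [quadP, hy]

theorem quadP_of_outer (α κ c : ℚ) {l r δ : ℚ} (hδ : 0 < δ) (hlr : l ≤ r) {x : ℝ}
    (hx : x < (l : ℝ) - δ ∨ (r : ℝ) + δ < x) : quadP α κ c l r δ x = 0 :=
  (quadP_eventuallyEq_zero α κ c hδ hlr hx).eq_of_nhds

theorem deriv_quadP_of_outer (α κ c : ℚ) {l r δ : ℚ} (hδ : 0 < δ) (hlr : l ≤ r) {x : ℝ}
    (hx : x < (l : ℝ) - δ ∨ (r : ℝ) + δ < x) : deriv (quadP α κ c l r δ) x = 0 := by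
  rw [(quadP_eventuallyEq_zero α κ c hδ hlr hx).deriv_eq]
  simp

theorem deriv_quadP_of_inner (α κ c : ℚ) {l r δ : ℚ} (hδ : 0 < δ) {x : ℝ} (hl : (l : ℝ) < x)
    (hr : x < (r : ℝ)) : deriv (quadP α κ c l r δ) x = (α : ℝ) + (κ : ℝ) * (x - (c : ℝ)) := by
  have h1 : quadP α κ c l r δ =ᶠ[nhds x]
      fun y : ℝ => ((κ : ℝ) / 2) * y ^ 2 + ((α : ℝ) - κ * c) * y + (κ : ℝ) * (c : ℝ) ^ 2 / 2 := by
    filter_upwards [plateau_eventuallyEq_one hδ hl hr] with y hy
    simp only [quadP, hy]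
    push_cast
    ring
  have h2 : HasDerivAt
      (fun y : ℝ => ((κ : ℝ) / 2) * y ^ 2 + ((α : ℝ) - κ * c) * y + (κ : ℝ) * (c : ℝ) ^ 2 / 2)
      (((κ : ℝ) / 2) * ((2 : ℕ) * x ^ (2 - 1)) + ((α : ℝ) - κ * c) * 1) x :=
    (((hasDerivAt_pow 2 x).const_mul ((κ : ℝ) / 2)).add
      ((hasDerivAt_id' x).const_mul ((α : ℝ) - κ * c))).add_const _
  rw [h1.deriv_eq, h2.deriv]
  norm_num
  ring

/-! ### The time profile -/

/-- The time profile: a smooth step from `0` (for `t ≤ τ₀`) to `1` (for `t ≥ τ₁`). -/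
noncomputable def theta (τ₀ τ₁ : ℚ) : ℝ → ℝ := step (τ₁ - τ₀)⁻¹ (-τ₀ / (τ₁ - τ₀))

theorem theta_contDiff (τ₀ τ₁ : ℚ) : ContDiff ℝ ∞ (theta τ₀ τ₁) := step_contDiff _ _

theorem theta_nonneg (τ₀ τ₁ : ℚ) (t : ℝ) : 0 ≤ theta τ₀ τ₁ t := step_nonneg _ _ _

theorem theta_le_one (τ₀ τ₁ : ℚ) (t : ℝ) : theta τ₀ τ₁ t ≤ 1 := step_le_one _ _ _

theorem theta_eq_zero {τ₀ τ₁ : ℚ} (hτ : τ₀ < τ₁) {t : ℝ} (ht : t ≤ (τ₀ : ℝ)) :
    theta τ₀ τ₁ t = 0 := by
  have hd : (0 : ℝ) < (τ₁ : ℝ) - τ₀ := by exact_mod_cast sub_pos.mpr hτ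
  apply step_eq_zero
  push_cast
  rw [show ((τ₁ : ℝ) - τ₀)⁻¹ * t + -(τ₀ : ℝ) / (τ₁ - τ₀) = (t - τ₀) / (τ₁ - τ₀) by
    field_simp; ring]
  exact div_nonpos_of_nonpos_of_nonneg (by linarith) hd.le

theorem theta_eq_one {τ₀ τ₁ : ℚ} (hτ : τ₀ < τ₁) {t : ℝ} (ht : (τ₁ : ℝ) ≤ t) :
    theta τ₀ τ₁ t = 1 := by
  have hd : (0 : ℝ) < (τ₁ : ℝ) - τ₀ := by exact_mod_cast sub_pos.mpr hτ
  apply step_eq_one
  push_cast
  rw [show ((τ₁ : ℝ) - τ₀)⁻¹ * t + -(τ₀ : ℝ) / (τ₁ - τ₀) = (t - τ₀) / (τ₁ - τ₀) by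
    field_simp; ring]
  rw [le_div_iff₀ hd]
  linarith

theorem hasDerivAt_theta (τ₀ τ₁ : ℚ) (t : ℝ) :
    HasDerivAt (theta τ₀ τ₁) (deriv (theta τ₀ τ₁) t) t :=
  ((theta_contDiff τ₀ τ₁).differentiable (by simp)).differentiableAt.hasDerivAt

theorem deriv_theta_eq_zero {τ₀ τ₁ : ℚ} (hτ : τ₀ < τ₁) {t : ℝ}
    (ht : t ∉ Ioo (τ₀ : ℝ) (τ₁ : ℝ)) : deriv (theta τ₀ τ₁) t = 0 := by
  by_cases h : t ≤ (τ₀ : ℝ)
  · have hmin : IsLocalMin (theta τ₀ τ₁) t := by
      refine Filter.Eventually.of_forall fun s => ?_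
      rw [theta_eq_zero hτ h]
      exact theta_nonneg _ _ _
    exact hmin.deriv_eq_zero
  · have h' : (τ₁ : ℝ) ≤ t := by
      by_contra hcon
      exact ht ⟨lt_of_not_ge h, lt_of_not_ge hcon⟩
    have hmax : IsLocalMax (theta τ₀ τ₁) t := by
      refine Filter.Eventually.of_forall fun s => ?_
      rw [theta_eq_one hτ h']
      exact theta_le_one _ _ _
    exact hmax.deriv_eq_zero

theorem contDiff_deriv_of_contDiff {f : ℝ → ℝ} (hf : ContDiff ℝ ∞ f) : ContDiff ℝ ∞ (deriv f) :=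
  (contDiff_infty_iff_deriv.mp hf).2

theorem differentiable_of_contDiff {f : ℝ → ℝ} (hf : ContDiff ℝ ∞ f) : Differentiable ℝ f :=
  (contDiff_infty_iff_deriv.mp hf).1

/-! ### Tensor fields with the space factors given as a family -/

/-- `Helper13.tensor` with the three space factors given as a family. -/
noncomputable def tens (g : ℝ → ℝ) (F : Fin 3 → ℝ → ℝ) (j : Fin 3) : Field :=
  Crest.Agent.Helper13.tensor g (F 0) (F 1) (F 2) j

theorem tens_apply (g : ℝ → ℝ) (F : Fin 3 → ℝ → ℝ) (j : Fin 3) (t : ℝ) (y : Fin 3 → ℝ) :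
    tens g F j (t, y) = (g t * ∏ m, F m (y m)) • (Pi.single j (1 : ℝ) : Fin 3 → ℝ) := by
  simp [tens, Crest.Agent.Helper13.tensor, Fin.prod_univ_three, mul_assoc]

theorem tens_contDiff {g : ℝ → ℝ} {F : Fin 3 → ℝ → ℝ} (hg : ContDiff ℝ ∞ g)
    (hF : ∀ m, ContDiff ℝ ∞ (F m)) (j : Fin 3) : ContDiff ℝ ∞ (tens g F j) := by
  have h0 := hF 0
  have h1 := hF 1
  have h2 := hF 2
  have : ContDiff ℝ ∞ (fun p : ℝ × (Fin 3 → ℝ) =>
      (g p.1 * F 0 (p.2 0) * F 1 (p.2 1) * F 2 (p.2 2)) • (Pi.single j (1 : ℝ) : Fin 3 → ℝ)) := by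
    fun_prop
  exact this

theorem hasFDerivAt_time {g : ℝ → ℝ} (hg : Differentiable ℝ g) (p : ℝ × (Fin 3 → ℝ)) :
    HasFDerivAt (fun p : ℝ × (Fin 3 → ℝ) => g p.1)
      (deriv g p.1 • ContinuousLinearMap.fst ℝ ℝ (Fin 3 → ℝ)) p :=
  (hg p.1).hasDerivAt.comp_hasFDerivAt p hasFDerivAt_fst

theorem hasFDerivAt_coord {A : ℝ → ℝ} (hA : Differentiable ℝ A) (m : Fin 3)
    (p : ℝ × (Fin 3 → ℝ)) :
    HasFDerivAt (fun p : ℝ × (Fin 3 → ℝ) => A (p.2 m))
      (deriv A (p.2 m) • ((ContinuousLinearMap.proj (R := ℝ) (φ := fun _ : Fin 3 => ℝ) m).comp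
        (ContinuousLinearMap.snd ℝ ℝ (Fin 3 → ℝ)))) p := by
  have h1 : HasFDerivAt (fun p : ℝ × (Fin 3 → ℝ) => p.2 m)
      ((ContinuousLinearMap.proj (R := ℝ) (φ := fun _ : Fin 3 => ℝ) m).comp
        (ContinuousLinearMap.snd ℝ ℝ (Fin 3 → ℝ))) p :=
    ((ContinuousLinearMap.proj (R := ℝ) (φ := fun _ : Fin 3 => ℝ) m).comp
        (ContinuousLinearMap.snd ℝ ℝ (Fin 3 → ℝ))).hasFDerivAt
  exact (hA (p.2 m)).hasDerivAt.comp_hasFDerivAt p h1

/-- The space divergence of a tensor field: the factor of the field's own direction is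
differentiated once. -/
theorem spaceDiv_tens {g : ℝ → ℝ} {F : Fin 3 → ℝ → ℝ} (hg : Differentiable ℝ g)
    (hF : ∀ m, Differentiable ℝ (F m)) (j : Fin 3) (p : ℝ × (Fin 3 → ℝ)) :
    spaceDiv (tens g F j) p = g p.1 * ∏ m, (Function.update F j (deriv (F j))) m (p.2 m) := by
  have H := ((((hasFDerivAt_time hg p).mul (hasFDerivAt_coord (hF 0) 0 p)).mul
    (hasFDerivAt_coord (hF 1) 1 p)).mul (hasFDerivAt_coord (hF 2) 2 p)).smul_const
      (Pi.single j (1 : ℝ) : Fin 3 → ℝ)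
  have hfd : fderiv ℝ (tens g F j) p = _ := H.fderiv
  unfold spaceDiv
  rw [hfd]
  simp only [Fin.sum_univ_three, Fin.prod_univ_three]
  fin_cases j <;> simp [Function.update] <;> ring

theorem spaceDiv_add' {U V : Field} {p : ℝ × (Fin 3 → ℝ)} (hU : DifferentiableAt ℝ U p)
    (hV : DifferentiableAt ℝ V p) :
    spaceDiv (fun q => U q + V q) p = spaceDiv U p + spaceDiv V p := by
  unfold spaceDiv
  rw [fderiv_fun_add hU hV]
  simp [Finset.sum_add_distrib]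

/-! ### The stage field -/

/-- The plateau of the `m`-th coordinate. -/
noncomputable def stageP (lo hi : Fin 3 → ℚ) (δ : ℚ) (m : Fin 3) : ℝ → ℝ :=
  plateau (lo m) (hi m) δ

/-- The stream-function factor of the coordinate `l`. -/
noncomputable def stageQ (l : Fin 3) (α κ c : ℚ) (lo hi : Fin 3 → ℚ) (δ : ℚ) : ℝ → ℝ :=
  quadP α κ c (lo l) (hi l) δ

/-- Space factors of the first tensor term (direction `j`). -/
noncomputable def stageF₁ (l : Fin 3) (α κ c : ℚ) (lo hi : Fin 3 → ℚ) (δ : ℚ) :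
    Fin 3 → ℝ → ℝ :=
  Function.update (stageP lo hi δ) l (deriv (stageQ l α κ c lo hi δ))

/-- Space factors of the second tensor term (direction `l`). -/
noncomputable def stageF₂ (j l : Fin 3) (α κ c : ℚ) (lo hi : Fin 3 → ℚ) (δ : ℚ) :
    Fin 3 → ℝ → ℝ :=
  Function.update (Function.update (stageP lo hi δ) l (stageQ l α κ c lo hi δ)) j
    (deriv (stageP lo hi δ j))

/-- Time factor of the first tensor term: the derivative of the time profile. -/
noncomputable def stageG (τ₀ τ₁ : ℚ) : ℝ → ℝ := deriv (theta τ₀ τ₁)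

/-- Time factor of the second tensor term. -/
noncomputable def stageGneg (τ₀ τ₁ : ℚ) : ℝ → ℝ :=
  fun t => ((-1 : ℚ) : ℝ) * deriv (theta τ₀ τ₁) t

/-- The stage field: a sum of two tensor fields; it is the planar curl (in the `(l, j)` plane)
of the stream function `stageQ (x l) * stageP j (x j) * stageP r (x r)`, times the time factor. -/
noncomputable def stageField (j l : Fin 3) (α κ c : ℚ) (lo hi : Fin 3 → ℚ) (δ τ₀ τ₁ : ℚ) :
    Field :=
  fun p => tens (stageG τ₀ τ₁) (stageF₁ l α κ c lo hi δ) j p +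
    tens (stageGneg τ₀ τ₁) (stageF₂ j l α κ c lo hi δ) l p

/-- The affine map realised by the stage on the inner box. -/
noncomputable def moveMap (j l : Fin 3) (α κ c : ℚ) (y : Fin 3 → ℝ) : Fin 3 → ℝ :=
  y + ((α : ℝ) + (κ : ℝ) * (y l - (c : ℝ))) • (Pi.single j (1 : ℝ) : Fin 3 → ℝ)

/-- The open box on which the stage field is the affine model field. -/
def inner (lo hi : Fin 3 → ℚ) : Set (Fin 3 → ℝ) :=
  {y | ∀ m, (lo m : ℝ) < y m ∧ y m < (hi m : ℝ)}

/-- The complement of the closed inflated box: the stage field vanishes there. -/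
def outer (lo hi : Fin 3 → ℚ) (δ : ℚ) : Set (Fin 3 → ℝ) :=
  {y | ∃ m, y m < (lo m : ℝ) - (δ : ℝ) ∨ (hi m : ℝ) + (δ : ℝ) < y m}

section

variable {j l : Fin 3} {α κ c : ℚ} {lo hi : Fin 3 → ℚ} {δ τ₀ τ₁ : ℚ}

theorem stageG_contDiff (τ₀ τ₁ : ℚ) : ContDiff ℝ ∞ (stageG τ₀ τ₁) :=
  contDiff_deriv_of_contDiff (theta_contDiff τ₀ τ₁)

theorem stageGneg_contDiff (τ₀ τ₁ : ℚ) : ContDiff ℝ ∞ (stageGneg τ₀ τ₁) :=
  contDiff_const.mul (stageG_contDiff τ₀ τ₁)

theorem stageP_contDiff (lo hi : Fin 3 → ℚ) (δ : ℚ) (m : Fin 3) :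
    ContDiff ℝ ∞ (stageP lo hi δ m) := plateau_contDiff _ _ _

theorem stageQ_contDiff (l : Fin 3) (α κ c : ℚ) (lo hi : Fin 3 → ℚ) (δ : ℚ) :
    ContDiff ℝ ∞ (stageQ l α κ c lo hi δ) := quadP_contDiff _ _ _ _ _ _

theorem stageF₁_contDiff (l : Fin 3) (α κ c : ℚ) (lo hi : Fin 3 → ℚ) (δ : ℚ) (m : Fin 3) :
    ContDiff ℝ ∞ (stageF₁ l α κ c lo hi δ m) := by
  unfold stageF₁
  by_cases h : m = l
  · subst h
    rw [Function.update_self]
    exact contDiff_deriv_of_contDiff (stageQ_contDiff _ _ _ _ _ _ _)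
  · rw [Function.update_of_ne h]
    exact stageP_contDiff _ _ _ _

theorem stageF₂_contDiff (j l : Fin 3) (α κ c : ℚ) (lo hi : Fin 3 → ℚ) (δ : ℚ) (m : Fin 3) :
    ContDiff ℝ ∞ (stageF₂ j l α κ c lo hi δ m) := by
  unfold stageF₂
  by_cases h : m = j
  · subst h
    rw [Function.update_self]
    exact contDiff_deriv_of_contDiff (stageP_contDiff _ _ _ _)
  · rw [Function.update_of_ne h]
    by_cases h' : m = l
    · subst h'
      rw [Function.update_self]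
      exact stageQ_contDiff _ _ _ _ _ _ _
    · rw [Function.update_of_ne h']
      exact stageP_contDiff _ _ _ _

/-- The stage field is smooth. -/
theorem stageField_contDiff (j l : Fin 3) (α κ c : ℚ) (lo hi : Fin 3 → ℚ) (δ τ₀ τ₁ : ℚ) :
    ContDiff ℝ ∞ (stageField j l α κ c lo hi δ τ₀ τ₁) :=
  (tens_contDiff (stageG_contDiff τ₀ τ₁) (stageF₁_contDiff l α κ c lo hi δ) j).add
    (tens_contDiff (stageGneg_contDiff τ₀ τ₁) (stageF₂_contDiff j l α κ c lo hi δ) l)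

/-- The stage field vanishes outside the open time window. -/
theorem stageField_time_zero (j l : Fin 3) (α κ c : ℚ) (lo hi : Fin 3 → ℚ) (δ : ℚ)
    (hτ : τ₀ < τ₁) {t : ℝ} (ht : t ∉ Ioo (τ₀ : ℝ) (τ₁ : ℝ)) (y : Fin 3 → ℝ) :
    stageField j l α κ c lo hi δ τ₀ τ₁ (t, y) = 0 := by
  simp [stageField, tens_apply, stageG, stageGneg, deriv_theta_eq_zero hτ ht]

theorem stageF₁_outer (l : Fin 3) (α κ c : ℚ) (hδ : 0 < δ) (hlohi : ∀ m, lo m < hi m)
    {m : Fin 3} {x : ℝ} (hx : x < (lo m : ℝ) - (δ : ℝ) ∨ (hi m : ℝ) + (δ : ℝ) < x) :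
    stageF₁ l α κ c lo hi δ m x = 0 := by
  unfold stageF₁
  by_cases h : m = l
  · subst h
    rw [Function.update_self]
    exact deriv_quadP_of_outer α κ c hδ (hlohi m).le hx
  · rw [Function.update_of_ne h]
    exact (plateau_eventuallyEq_zero hδ (hlohi m).le hx).eq_of_nhds

theorem stageF₂_outer (j l : Fin 3) (α κ c : ℚ) (hδ : 0 < δ) (hlohi : ∀ m, lo m < hi m)
    {m : Fin 3} {x : ℝ} (hx : x < (lo m : ℝ) - (δ : ℝ) ∨ (hi m : ℝ) + (δ : ℝ) < x) :
    stageF₂ j l α κ c lo hi δ m x = 0 := by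
  unfold stageF₂
  by_cases h : m = j
  · subst h
    rw [Function.update_self]
    exact deriv_plateau_of_outer hδ (hlohi m).le hx
  · rw [Function.update_of_ne h]
    by_cases h' : m = l
    · subst h'
      rw [Function.update_self]
      exact quadP_of_outer α κ c hδ (hlohi m).le hx
    · rw [Function.update_of_ne h']
      exact (plateau_eventuallyEq_zero hδ (hlohi m).le hx).eq_of_nhds

/-- The stage field vanishes outside the closed inflated box. -/
theorem stageField_outer (j l : Fin 3) (α κ c : ℚ) (τ₀ τ₁ : ℚ) (hδ : 0 < δ)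
    (hlohi : ∀ m, lo m < hi m) (t : ℝ) {y : Fin 3 → ℝ} (hy : y ∈ outer lo hi δ) :
    stageField j l α κ c lo hi δ τ₀ τ₁ (t, y) = 0 := by
  obtain ⟨m, hm⟩ := hy
  have h1 : ∏ m, stageF₁ l α κ c lo hi δ m (y m) = 0 :=
    Finset.prod_eq_zero (Finset.mem_univ m) (stageF₁_outer l α κ c hδ hlohi hm)
  have h2 : ∏ m, stageF₂ j l α κ c lo hi δ m (y m) = 0 :=
    Finset.prod_eq_zero (Finset.mem_univ m) (stageF₂_outer j l α κ c hδ hlohi hm)
  simp [stageField, tens_apply, h1, h2]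

/-- On the inner box the stage field is the affine model field. -/
theorem stageField_inner (j l : Fin 3) (α κ c : ℚ) (τ₀ τ₁ : ℚ) (hδ : 0 < δ) (t : ℝ)
    {y : Fin 3 → ℝ} (hy : y ∈ inner lo hi) :
    stageField j l α κ c lo hi δ τ₀ τ₁ (t, y) =
      deriv (theta τ₀ τ₁) t •
        (((α : ℝ) + (κ : ℝ) * (y l - (c : ℝ))) • (Pi.single j (1 : ℝ) : Fin 3 → ℝ)) := by
  have h1 : ∏ m, stageF₁ l α κ c lo hi δ m (y m) = (α : ℝ) + (κ : ℝ) * (y l - (c : ℝ)) := by
    rw [Finset.prod_eq_single l]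
    · unfold stageF₁
      rw [Function.update_self]
      exact deriv_quadP_of_inner α κ c hδ (hy l).1 (hy l).2
    · intro m _ hm
      unfold stageF₁
      rw [Function.update_of_ne hm]
      exact plateau_eq_one hδ (hy m).1.le (hy m).2.le
    · intro h
      exact absurd (Finset.mem_univ l) h
  have h2 : ∏ m, stageF₂ j l α κ c lo hi δ m (y m) = 0 := by
    refine Finset.prod_eq_zero (Finset.mem_univ j) ?_
    unfold stageF₂
    rw [Function.update_self]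
    exact deriv_plateau_of_inner hδ (hy j).1 (hy j).2
  simp [stageField, tens_apply, h1, h2, stageG, smul_smul]

theorem stageF_update_eq (hjl : j ≠ l) (α κ c : ℚ) (lo hi : Fin 3 → ℚ) (δ : ℚ) :
    Function.update (stageF₁ l α κ c lo hi δ) j (deriv (stageF₁ l α κ c lo hi δ j)) =
      Function.update (stageF₂ j l α κ c lo hi δ) l (deriv (stageF₂ j l α κ c lo hi δ l)) := by
  funext m
  unfold stageF₁ stageF₂
  by_cases h : m = j
  · subst h
    simp [Function.update_of_ne hjl]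
  · by_cases h' : m = l
    · subst h'
      simp [Function.update_of_ne h, Function.update_of_ne hjl]
    · simp [Function.update_of_ne h, Function.update_of_ne h']

/-- The stage field is divergence free in the space variables. -/
theorem stageField_spaceDiv (hjl : j ≠ l) (α κ c : ℚ) (lo hi : Fin 3 → ℚ) (δ τ₀ τ₁ : ℚ)
    (p : ℝ × (Fin 3 → ℝ)) : spaceDiv (stageField j l α κ c lo hi δ τ₀ τ₁) p = 0 := by
  have hd1 : DifferentiableAt ℝ (tens (stageG τ₀ τ₁) (stageF₁ l α κ c lo hi δ) j) p :=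
    ((tens_contDiff (stageG_contDiff τ₀ τ₁) (stageF₁_contDiff l α κ c lo hi δ) j).differentiable
      (by simp)).differentiableAt
  have hd2 : DifferentiableAt ℝ (tens (stageGneg τ₀ τ₁) (stageF₂ j l α κ c lo hi δ) l) p :=
    ((tens_contDiff (stageGneg_contDiff τ₀ τ₁)
      (stageF₂_contDiff j l α κ c lo hi δ) l).differentiable (by simp)).differentiableAt
  unfold stageField
  rw [spaceDiv_add' hd1 hd2,
    spaceDiv_tens (differentiable_of_contDiff (stageG_contDiff τ₀ τ₁))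
      (fun m => differentiable_of_contDiff (stageF₁_contDiff l α κ c lo hi δ m)) j p,
    spaceDiv_tens (differentiable_of_contDiff (stageGneg_contDiff τ₀ τ₁))
      (fun m => differentiable_of_contDiff (stageF₂_contDiff j l α κ c lo hi δ m)) l p,
    stageF_update_eq hjl]
  simp only [stageGneg, stageG]
  push_cast
  ring

/-- The stage field has compact support. -/
theorem stageField_hasCompactSupport (j l : Fin 3) (α κ c : ℚ) (hδ : 0 < δ)
    (hlohi : ∀ m, lo m < hi m) (hτ : τ₀ < τ₁) :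
    HasCompactSupport (stageField j l α κ c lo hi δ τ₀ τ₁) := by
  have hK : IsCompact ((Icc (τ₀ : ℝ) (τ₁ : ℝ)) ×ˢ
      (Set.pi Set.univ fun m : Fin 3 => Icc ((lo m : ℝ) - (δ : ℝ)) ((hi m : ℝ) + (δ : ℝ)))) :=
    isCompact_Icc.prod (isCompact_univ_pi fun _ => isCompact_Icc)
  refine HasCompactSupport.intro hK fun p hp => ?_
  obtain ⟨t, y⟩ := p
  by_cases ht : t ∈ Icc (τ₀ : ℝ) (τ₁ : ℝ)
  · have hy : y ∈ outer lo hi δ := by
      by_contra hcon
      apply hp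
      refine ⟨ht, fun m _ => ?_⟩
      simp only [outer, Set.mem_ofPred_eq, not_exists, not_or, not_lt] at hcon
      exact ⟨(hcon m).1, (hcon m).2⟩
    exact stageField_outer j l α κ c τ₀ τ₁ hδ hlohi t hy
  · exact stageField_time_zero j l α κ c lo hi δ hτ (fun h => ht (Ioo_subset_Icc_self h)) y

/-! ### Explicit integral curves of the stage field -/

theorem moveMap_apply_of_ne (j l : Fin 3) (α κ c : ℚ) (y : Fin 3 → ℝ) {m : Fin 3} (hm : m ≠ j) :
    moveMap j l α κ c y m = y m := by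
  simp [moveMap, hm]

theorem moveMap_apply_self (j l : Fin 3) (α κ c : ℚ) (y : Fin 3 → ℝ) :
    moveMap j l α κ c y j = y j + ((α : ℝ) + (κ : ℝ) * (y l - (c : ℝ))) := by
  simp [moveMap]

/-- **Moving curve.** A point `y` of the inner box whose image under the stage map is again in
the inner box travels along the straight segment from `y` to `moveMap y`: the curve
`t ↦ y + θ t • (moveMap y - y)` is an integral curve of the stage field, rests at `y` before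
`τ₀` and at `moveMap y` after `τ₁`, and stays in the inner box. -/
theorem stage_curve_move (hjl : j ≠ l) (hδ : 0 < δ) (hτ : τ₀ < τ₁) {y : Fin 3 → ℝ}
    (hy : y ∈ inner lo hi) (hmy : moveMap j l α κ c y ∈ inner lo hi) :
    ∃ γ : ℝ → Fin 3 → ℝ, (∀ t, t ≤ (τ₀ : ℝ) → γ t = y) ∧
      (∀ t, (τ₁ : ℝ) ≤ t → γ t = moveMap j l α κ c y) ∧ (∀ t, γ t ∈ inner lo hi) ∧
      ∀ t, HasDerivAt γ (stageField j l α κ c lo hi δ τ₀ τ₁ (t, γ t)) t := by
  set a : ℝ := (α : ℝ) + (κ : ℝ) * (y l - (c : ℝ)) with ha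
  set v : Fin 3 → ℝ := a • (Pi.single j (1 : ℝ) : Fin 3 → ℝ) with hv
  have hmove : moveMap j l α κ c y = y + v := rfl
  have hvl : v l = 0 := by simp [hv, hjl.symm]
  have hin : ∀ t, y + theta τ₀ τ₁ t • v ∈ inner lo hi := by
    intro t m
    by_cases hm : m = j
    · subst hm
      have h1 : y m ∈ Ioo (lo m : ℝ) (hi m : ℝ) := hy m
      have h2 : y m + a ∈ Ioo (lo m : ℝ) (hi m : ℝ) := by
        have := hmy m
        rw [moveMap_apply_self] at this
        exact this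
      have h3 := (convex_Ioo (lo m : ℝ) (hi m : ℝ)).add_smul_sub_mem h1 h2
        (⟨theta_nonneg τ₀ τ₁ t, theta_le_one τ₀ τ₁ t⟩ : theta τ₀ τ₁ t ∈ Icc (0 : ℝ) 1)
      have h4 : (y + theta τ₀ τ₁ t • v) m = y m + theta τ₀ τ₁ t • (y m + a - y m) := by
        simp [hv]
      rw [h4]
      exact h3
    · have h4 : (y + theta τ₀ τ₁ t • v) m = y m := by
        simp [hv, hm]
      rw [h4]
      exact hy m
  refine ⟨fun t => y + theta τ₀ τ₁ t • v, fun t ht => ?_, fun t ht => ?_, hin, fun t => ?_⟩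
  · simp [theta_eq_zero hτ ht]
  · simp [theta_eq_one hτ ht, hmove]
  · have hval : stageField j l α κ c lo hi δ τ₀ τ₁ (t, y + theta τ₀ τ₁ t • v) =
        deriv (theta τ₀ τ₁) t • v := by
      rw [stageField_inner j l α κ c τ₀ τ₁ hδ t (hin t)]
      have : (y + theta τ₀ τ₁ t • v) l = y l := by simp [hvl]
      rw [this]
    rw [hval]
    exact ((hasDerivAt_theta τ₀ τ₁ t).smul_const v).const_add y

/-- **Resting curve.** A point outside the closed inflated box does not move. -/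
theorem stage_curve_rest (j l : Fin 3) (α κ c : ℚ) (τ₀ τ₁ : ℚ) (hδ : 0 < δ)
    (hlohi : ∀ m, lo m < hi m) {y : Fin 3 → ℝ} (hy : y ∈ outer lo hi δ) (t : ℝ) :
    HasDerivAt (fun _ : ℝ => y) (stageField j l α κ c lo hi δ τ₀ τ₁ (t, y)) t := by
  rw [stageField_outer j l α κ c τ₀ τ₁ hδ hlohi t hy]
  exact hasDerivAt_const t y

/-! ### Flow form of the stage lemmas -/

/-- **Stage lemma, moving points.** If the field `U` coincides with the stage field during the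
time window, then a trajectory which is in the inner box at time `τ₀`, and whose image under
the stage map is in the inner box, is at the image at time `τ₁`. -/
theorem stage_flow_move {U : Field} {Φ : ℝ → (Fin 3 → ℝ) → (Fin 3 → ℝ)}
    (hU : ContDiff ℝ ∞ U) (hc : HasCompactSupport U) (hΦ : IsFlow U Φ)
    (hjl : j ≠ l) (hδ : 0 < δ) (hτ : τ₀ < τ₁)
    (hUs : ∀ t ∈ Icc (τ₀ : ℝ) (τ₁ : ℝ), ∀ y,
      U (t, y) = stageField j l α κ c lo hi δ τ₀ τ₁ (t, y))
    {x : Fin 3 → ℝ} (hin : Φ (τ₀ : ℝ) x ∈ inner lo hi)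
    (hmap : moveMap j l α κ c (Φ (τ₀ : ℝ) x) ∈ inner lo hi) :
    Φ (τ₁ : ℝ) x = moveMap j l α κ c (Φ (τ₀ : ℝ) x) := by
  obtain ⟨γ, h0, h1, -, hγ⟩ := stage_curve_move (α := α) (κ := κ) (c := c) (δ := δ) hjl hδ hτ
    hin hmap
  have hτ' : (τ₀ : ℝ) ≤ (τ₁ : ℝ) := by exact_mod_cast hτ.le
  have h := isFlow_eq_of_hasDerivAt hU hc hΦ (γ := γ) (t₀ := (τ₀ : ℝ)) (t₁ := (τ₁ : ℝ)) (x := x)
    (fun t ht => by rw [hUs t ht]; exact hγ t) (h0 _ le_rfl) (τ₁ : ℝ) ⟨hτ', le_rfl⟩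
  rw [← h, h1 _ le_rfl]

/-- **Stage lemma, resting points.** If the field `U` coincides with the stage field during
the time window, then a trajectory which is outside the closed inflated box at time `τ₀` is
at the same place at time `τ₁`. -/
theorem stage_flow_rest {U : Field} {Φ : ℝ → (Fin 3 → ℝ) → (Fin 3 → ℝ)}
    (hU : ContDiff ℝ ∞ U) (hc : HasCompactSupport U) (hΦ : IsFlow U Φ)
    (j l : Fin 3) (α κ c : ℚ) (hδ : 0 < δ) (hlohi : ∀ m, lo m < hi m) (hτ : τ₀ ≤ τ₁)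
    (hUs : ∀ t ∈ Icc (τ₀ : ℝ) (τ₁ : ℝ), ∀ y,
      U (t, y) = stageField j l α κ c lo hi δ τ₀ τ₁ (t, y))
    {x : Fin 3 → ℝ} (hout : Φ (τ₀ : ℝ) x ∈ outer lo hi δ) :
    Φ (τ₁ : ℝ) x = Φ (τ₀ : ℝ) x := by
  have hτ' : (τ₀ : ℝ) ≤ (τ₁ : ℝ) := by exact_mod_cast hτ
  refine isFlow_const_of_zero hU hc hΦ (t₀ := (τ₀ : ℝ)) (t₁ := (τ₁ : ℝ)) (x := x)
    (fun t ht => ?_) (τ₁ : ℝ) ⟨hτ', le_rfl⟩
  rw [hUs t (Ico_subset_Icc_self ht)]
  exact stageField_outer j l α κ c τ₀ τ₁ hδ hlohi t hout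

/-- **Stage package.** Everything the assembly needs from a stage field except effectiveness,
in the order of the assembly's stage specification. -/
theorem stageField_spec (hjl : j ≠ l) (α κ c : ℚ) (hδ : 0 < δ) (hlohi : ∀ m, lo m < hi m)
    (hτ : τ₀ < τ₁) :
    HasCompactSupport (stageField j l α κ c lo hi δ τ₀ τ₁) ∧
    (∀ p, spaceDiv (stageField j l α κ c lo hi δ τ₀ τ₁) p = 0) ∧
    (∀ p : ℝ × (Fin 3 → ℝ), p.1 ∉ Set.Ioo (τ₀ : ℝ) (τ₁ : ℝ) →
      stageField j l α κ c lo hi δ τ₀ τ₁ p = 0) ∧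
    (∀ y ∈ outer lo hi δ, ∀ t : ℝ, stageField j l α κ c lo hi δ τ₀ τ₁ (t, y) = 0) ∧
    (∀ y ∈ inner lo hi, moveMap j l α κ c y ∈ inner lo hi →
      ∃ γ : ℝ → (Fin 3 → ℝ), (∀ t ≤ (τ₀ : ℝ), γ t = y) ∧
        (∀ t ≥ (τ₁ : ℝ), γ t = moveMap j l α κ c y) ∧
        ∀ t, HasDerivAt γ (stageField j l α κ c lo hi δ τ₀ τ₁ (t, γ t)) t) := by
  refine ⟨stageField_hasCompactSupport j l α κ c hδ hlohi hτ,
    stageField_spaceDiv hjl α κ c lo hi δ τ₀ τ₁, fun p hp => ?_, fun y hy t => ?_,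
    fun y hy hmy => ?_⟩
  · obtain ⟨t, y⟩ := p
    exact stageField_time_zero j l α κ c lo hi δ hτ hp y
  · exact stageField_outer j l α κ c τ₀ τ₁ hδ hlohi t hy
  · obtain ⟨γ, h0, h1, -, hγ⟩ := stage_curve_move (α := α) (κ := κ) (c := c) (δ := δ)
      (τ₀ := τ₀) (τ₁ := τ₁) hjl hδ hτ hy hmy
    exact ⟨γ, h0, h1, hγ⟩

end

end Crest.Agent.Helper6
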