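import Mathlib

/-!
# Row 211, module G1: cutting triangle cylinders into parallelogram cylinders

`strips`: a finite family of cylinders over nondegenerate triangles (bases perpendicular to the
axes) is covered by a finite family of cylinders over nondegenerate closed parallelograms whose
total base area (as the Gram formula) is exactly `(1 + 1/n)` times the total triangle area.

Triangle `p, q, r`, strip `l < n`: corner `p + (l/n)(q-p)`, sides `(q-p)/n` and `(1 - l/n)(r-p)`.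
-/

set_option autoImplicit false

namespace Crest.Agent.Helper6

open scoped BigOperators

section Strips

variable {E : Type*} [NormedAddCommGroup E] [InnerProductSpace ℝ E]

/-- The Gram determinant is homogeneous of degree two in each argument. -/
theorem gram_smul (α β : ℝ) (a b : E) :
    ‖α • a‖ ^ 2 * ‖β • b‖ ^ 2 - inner ℝ (α • a) (β • b) ^ 2
      = (α * β) ^ 2 * (‖a‖ ^ 2 * ‖b‖ ^ 2 - inner ℝ a b ^ 2) := by
  rw [norm_smul, norm_smul, real_inner_smul_left, real_inner_smul_right, mul_pow, mul_pow,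
    Real.norm_eq_abs, Real.norm_eq_abs, sq_abs, sq_abs]
  ring

/-- Barycentric parametrisation of a triangle from the vertex `p`. -/
theorem mem_convexHull_triple_param {p q r y : E}
    (hy : y ∈ convexHull ℝ ({p, q, r} : Set E)) :
    ∃ s t : ℝ, 0 ≤ s ∧ 0 ≤ t ∧ s + t ≤ 1 ∧ y = p + s • (q - p) + t • (r - p) := by
  rw [convexHull_insert (Set.insert_nonempty _ _), convexHull_pair, mem_convexJoin] at hy
  obtain ⟨a, ha, z, hz, hyz⟩ := hy
  rw [Set.mem_singleton_iff] at ha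
  subst ha
  obtain ⟨α, β, hα, hβ, hαβ, rfl⟩ := hz
  obtain ⟨γ, δ, hγ, hδ, hγδ, rfl⟩ := hyz
  refine ⟨δ * α, δ * β, by positivity, by positivity, ?_, ?_⟩
  · have : δ * α + δ * β = δ * (α + β) := by ring
    rw [this, hαβ]; linarith
  · have h1 : γ = 1 - δ := by linarith
    have h2 : α = 1 - β := by linarith
    subst h1
    subst h2
    module

/-- Every `s ∈ [0,1]` lies in one of the `n` closed intervals `[l/n, (l+1)/n]`, `l < n`. -/
theorem exists_strip_index {n : ℕ} (hn : 0 < n) {s : ℝ} (hs0 : 0 ≤ s) (hs1 : s ≤ 1) :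
    ∃ l : ℕ, l < n ∧ (l : ℝ) / n ≤ s ∧ s ≤ ((l : ℝ) + 1) / n := by
  have hnpos : (0 : ℝ) < n := by exact_mod_cast hn
  by_cases h : ⌊s * n⌋₊ < n
  · refine ⟨⌊s * n⌋₊, h, ?_, ?_⟩
    · rw [div_le_iff₀ hnpos]
      exact Nat.floor_le (by positivity)
    · rw [le_div_iff₀ hnpos]
      exact (Nat.lt_floor_add_one _).le
  · have h := not_lt.mp h
    have h1 : (n : ℝ) ≤ s * n := by
      have h0 := Nat.floor_le (show (0 : ℝ) ≤ s * n by positivity)
      have h' : (n : ℝ) ≤ (⌊s * n⌋₊ : ℝ) := by exact_mod_cast h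
      linarith
    have hs : s = 1 := by
      have h2 : (1 : ℝ) ≤ s := by
        by_contra hlt
        have hlt := not_le.mp hlt
        nlinarith
      linarith
    subst hs
    have hc : ((n - 1 : ℕ) : ℝ) = (n : ℝ) - 1 := by
      rw [Nat.cast_sub (by omega)]; simp
    refine ⟨n - 1, by omega, ?_, ?_⟩
    · rw [div_le_iff₀ hnpos, hc]; linarith
    · rw [le_div_iff₀ hnpos, hc]; linarith

theorem sum_range_cast_id (n : ℕ) : ∑ l ∈ Finset.range n, (l : ℝ) = n * (n - 1) / 2 := by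
  induction n with
  | zero => simp
  | succ k ih => rw [Finset.sum_range_succ, ih]; push_cast; ring

theorem sum_fin_strip {n : ℕ} (hn : 0 < n) :
    ∑ l : Fin n, (1 / (n : ℝ)) * (1 - ((l : ℕ) : ℝ) / n) = (1 + 1 / (n : ℝ)) / 2 := by
  have hnpos : (0 : ℝ) < n := by exact_mod_cast hn
  rw [Fin.sum_univ_eq_sum_range (fun l : ℕ => (1 / (n : ℝ)) * (1 - (l : ℝ) / n)) n,
    ← Finset.mul_sum, Finset.sum_sub_distrib, ← Finset.sum_div, sum_range_cast_id]
  simp only [Finset.sum_const, Finset.card_range, nsmul_eq_mul, mul_one]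
  field_simp
  ring

/-- The strip construction with an arbitrary reindexing `e : Fin k ≃ Fin m × Fin n`. -/
theorem strips_aux (m : ℕ) (u p q r : Fin m → E) (hu : ∀ i, ‖u i‖ = 1)
    (hperp : ∀ i, inner ℝ (p i) (u i) = 0 ∧ inner ℝ (q i) (u i) = 0 ∧ inner ℝ (r i) (u i) = 0)
    (hnd : ∀ i, 0 < ‖q i - p i‖ ^ 2 * ‖r i - p i‖ ^ 2 - inner ℝ (q i - p i) (r i - p i) ^ 2)
    (n : ℕ) (hn : 0 < n) (k : ℕ) (e : Fin k ≃ Fin m × Fin n) :
    ∃ (u' c a b : Fin k → E),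
      (∀ i, ‖u' i‖ = 1) ∧
      (∀ i, inner ℝ (c i) (u' i) = 0 ∧ inner ℝ (a i) (u' i) = 0 ∧ inner ℝ (b i) (u' i) = 0) ∧
      (∀ i, 0 < ‖a i‖ ^ 2 * ‖b i‖ ^ 2 - inner ℝ (a i) (b i) ^ 2) ∧
      (⋃ i, {x : E | ∃ y ∈ convexHull ℝ {p i, q i, r i}, ∃ t : ℝ, x = y + t • u i}) ⊆
        ⋃ i, {x : E | ∃ s ∈ Set.Icc (0 : ℝ) 1, ∃ t ∈ Set.Icc (0 : ℝ) 1, ∃ τ : ℝ,
          x = c i + s • a i + t • b i + τ • u' i} ∧
      ∑ i, Real.sqrt (‖a i‖ ^ 2 * ‖b i‖ ^ 2 - inner ℝ (a i) (b i) ^ 2) =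
        (1 + 1 / (n : ℝ)) *
          ∑ i, Real.sqrt (‖q i - p i‖ ^ 2 * ‖r i - p i‖ ^ 2
            - inner ℝ (q i - p i) (r i - p i) ^ 2) / 2 := by
  have hnpos : (0 : ℝ) < n := by exact_mod_cast hn
  have hlpos : ∀ l : Fin n, 0 < 1 - ((l : ℕ) : ℝ) / n := by
    intro l
    rw [sub_pos, div_lt_one hnpos]
    exact_mod_cast l.isLt
  refine ⟨fun j => u (e j).1,
    fun j => p (e j).1 + ((((e j).2 : ℕ) : ℝ) / n) • (q (e j).1 - p (e j).1),
    fun j => (1 / (n : ℝ)) • (q (e j).1 - p (e j).1),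
    fun j => (1 - (((e j).2 : ℕ) : ℝ) / n) • (r (e j).1 - p (e j).1), ?_, ?_, ?_, ?_, ?_⟩
  · exact fun j => hu _
  · intro j
    obtain ⟨h1, h2, h3⟩ := hperp (e j).1
    refine ⟨?_, ?_, ?_⟩
    · simp only [inner_add_left, real_inner_smul_left, inner_sub_left, h1, h2, sub_zero,
        mul_zero, add_zero]
    · simp only [real_inner_smul_left, inner_sub_left, h1, h2, sub_zero, mul_zero]
    · simp only [real_inner_smul_left, inner_sub_left, h1, h3, sub_zero, mul_zero]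
  · intro j
    simp only []
    rw [gram_smul]
    have h1 := hlpos (e j).2
    have h2 : (0 : ℝ) < 1 / (n : ℝ) := by positivity
    exact mul_pos (pow_pos (mul_pos h2 h1) 2) (hnd _)
  · intro x hx
    rw [Set.mem_iUnion] at hx ⊢
    obtain ⟨i, y, hy, t, rfl⟩ := hx
    obtain ⟨s, t', hs, ht', hst, rfl⟩ := mem_convexHull_triple_param hy
    obtain ⟨l, hl, hl1, hl2⟩ := exists_strip_index hn hs (by linarith)
    refine ⟨e.symm (i, ⟨l, hl⟩), ?_⟩
    have hpos : 0 < 1 - (l : ℝ) / n := hlpos ⟨l, hl⟩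
    simp only [Set.mem_ofPred_eq, Equiv.apply_symm_apply, Set.mem_Icc]
    have hl1' : (l : ℝ) ≤ s * n := (div_le_iff₀ hnpos).mp hl1
    have hl2' : s * n ≤ (l : ℝ) + 1 := (le_div_iff₀ hnpos).mp hl2
    refine ⟨s * n - l, ⟨by linarith, by linarith⟩, t' / (1 - (l : ℝ) / n),
      ⟨div_nonneg ht' hpos.le, ?_⟩, t, ?_⟩
    · rw [div_le_one hpos]; linarith
    · have e1 : (s * n - l) • ((1 / (n : ℝ)) • (q i - p i))
          = (s - (l : ℝ) / n) • (q i - p i) := by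
        rw [smul_smul]; congr 1; field_simp
      have e2 : (t' / (1 - (l : ℝ) / n)) • ((1 - (l : ℝ) / n) • (r i - p i))
          = t' • (r i - p i) := by
        rw [smul_smul, div_mul_cancel₀ _ hpos.ne']
      rw [e1, e2]
      module
  · have hterm : ∀ j : Fin k,
        Real.sqrt (‖(1 / (n : ℝ)) • (q (e j).1 - p (e j).1)‖ ^ 2
            * ‖(1 - (((e j).2 : ℕ) : ℝ) / n) • (r (e j).1 - p (e j).1)‖ ^ 2
            - inner ℝ ((1 / (n : ℝ)) • (q (e j).1 - p (e j).1))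
                ((1 - (((e j).2 : ℕ) : ℝ) / n) • (r (e j).1 - p (e j).1)) ^ 2)
          = (fun x : Fin m × Fin n => (1 / (n : ℝ)) * (1 - ((x.2 : ℕ) : ℝ) / n)
              * Real.sqrt (‖q x.1 - p x.1‖ ^ 2 * ‖r x.1 - p x.1‖ ^ 2
                  - inner ℝ (q x.1 - p x.1) (r x.1 - p x.1) ^ 2)) (e j) := by
      intro j
      have h1 := hlpos (e j).2
      have h2 : (0 : ℝ) < 1 / (n : ℝ) := by positivity
      rw [gram_smul, Real.sqrt_mul (sq_nonneg _), Real.sqrt_sq (mul_pos h2 h1).le]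
    have hcomp := Equiv.sum_comp e
      (fun x : Fin m × Fin n => (1 / (n : ℝ)) * (1 - ((x.2 : ℕ) : ℝ) / n)
              * Real.sqrt (‖q x.1 - p x.1‖ ^ 2 * ‖r x.1 - p x.1‖ ^ 2
                  - inner ℝ (q x.1 - p x.1) (r x.1 - p x.1) ^ 2))
    refine (Finset.sum_congr rfl (fun j _ => hterm j)).trans (hcomp.trans ?_)
    rw [Fintype.sum_prod_type, Finset.mul_sum]
    apply Finset.sum_congr rfl
    intro i _
    dsimp only
    rw [← Finset.sum_mul, sum_fin_strip hn]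
    ring

end Strips

/-- **Row 211, module G1 (frozen shape).** Triangle cylinders are covered by parallelogram
cylinders of total Gram area `(1 + 1/n)` times the total triangle area. -/
theorem strips (m : ℕ) (u p q r : Fin m → EuclideanSpace ℝ (Fin 3)) (hu : ∀ i, ‖u i‖ = 1)
    (hperp : ∀ i, inner ℝ (p i) (u i) = 0 ∧ inner ℝ (q i) (u i) = 0 ∧ inner ℝ (r i) (u i) = 0)
    (hnd : ∀ i, 0 < ‖q i - p i‖ ^ 2 * ‖r i - p i‖ ^ 2 - inner ℝ (q i - p i) (r i - p i) ^ 2)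
    (n : ℕ) (hn : 0 < n) :
    ∃ (k : ℕ) (u' c a b : Fin k → EuclideanSpace ℝ (Fin 3)),
      (∀ i, ‖u' i‖ = 1) ∧
      (∀ i, inner ℝ (c i) (u' i) = 0 ∧ inner ℝ (a i) (u' i) = 0 ∧ inner ℝ (b i) (u' i) = 0) ∧
      (∀ i, 0 < ‖a i‖ ^ 2 * ‖b i‖ ^ 2 - inner ℝ (a i) (b i) ^ 2) ∧
      (⋃ i, {x : EuclideanSpace ℝ (Fin 3) |
          ∃ y ∈ convexHull ℝ {p i, q i, r i}, ∃ t : ℝ, x = y + t • u i}) ⊆
        ⋃ i, {x : EuclideanSpace ℝ (Fin 3) |
          ∃ s ∈ Set.Icc (0 : ℝ) 1, ∃ t ∈ Set.Icc (0 : ℝ) 1, ∃ τ : ℝ,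
            x = c i + s • a i + t • b i + τ • u' i} ∧
      ∑ i, Real.sqrt (‖a i‖ ^ 2 * ‖b i‖ ^ 2 - inner ℝ (a i) (b i) ^ 2) =
        (1 + 1 / (n : ℝ)) *
          ∑ i, Real.sqrt (‖q i - p i‖ ^ 2 * ‖r i - p i‖ ^ 2
            - inner ℝ (q i - p i) (r i - p i) ^ 2) / 2 :=
  ⟨m * n, strips_aux m u p q r hu hperp hnd n hn (m * n) finProdFinEquiv.symm⟩

end Crest.Agent.Helper6
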